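import Crest.Agent.X261.Ni.Bd
import Crest.Agent.X261.B88.Bas
import Crest.Agent.X261.End.Set

/-!
# X261 / NI (helper2), file `Main`: the image of the fibre group is not virtually indicable
-/

set_option autoImplicit false

namespace Crest.Agent.X261.Ni

open Crest.Agent.X261.B88

/-- **B4** -/
theorem niStmt : NIStmt := by
  intro hF n X _ _ _ _ A _ hA P K Γ _ D hc N _ hJ q Z hT hb
  have := Z.fi
  have hfg := fg_MG hb
  obtain ⟨O, -, ⟨t, ht⟩, h1⟩ := hb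
  obtain ⟨⟨x, rfl⟩, h2, h3⟩ := h1 t ht
  have h4 : Aff D Z.a (fun g => Z.L g) Z.lam := ⟨Z.hol, Z.eqv, Z.det⟩
  exact ni_of_bdd hJ hfg Z.le Z.add (fun m hm _ => ((mem_MG Z).1 hm).2) Z.maxb Z.inj
    (fun _ h => Z.heis P K hT h)
    (h4.bdd_of (fun _ hm => a_MG Z hm) h2 (fun _ _ _ hy h => dW_ne Z hy (h3 _ h))
      fun M1 h5 h6 => hF n X A hA P K Γ D hc N q Z hT M1 h5 h6 ℂ)

end Crest.Agent.X261.Ni

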