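import Crest.Agent.X261.End.Alg

/-!
# X261 / NI (helper2), file `Alg`: bounded orbits of characters imply that `K` is not
virtually indicable
-/

set_option autoImplicit false

open Set
open scoped commutatorElement

namespace Crest.Agent.X261.Ni

open Crest.Agent.X261.Grp

/-- an integral character of a finitely generated normal subgroup with bounded orbits is
invariant under a finite index subgroup -/
theorem exists_stab {G : Type*} [Group G] {K : Subgroup G} [hn : K.Normal] (hK : K.FG)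
    {c : G → ℤ} (hc : AddOn K c) (hb : ∀ k ∈ K, ∃ C : ℝ, ∀ g, |(c (g * k * g⁻¹) : ℝ)| ≤ C) :
    ∃ St : Subgroup G, St.FiniteIndex ∧ ∀ g ∈ St, ∀ k ∈ K, c (g * k * g⁻¹) = c k := by
  obtain ⟨S, hS⟩ := hK
  have hS' : ∀ s : S, (s : G) ∈ K := fun s => hS ▸ Subgroup.subset_closure s.2
  have ha : ∀ g, AddOn K fun k => c (g⁻¹ * k * g) := fun g x hx y hy => by
    have h1 := hc _ (hn.conj_mem' x hx g) _ (hn.conj_mem' y hy g)
    rwa [show g⁻¹ * x * g * (g⁻¹ * y * g) = g⁻¹ * (x * y) * g by group] at h1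
  let St : Subgroup G :=
    { carrier := {g | ∀ k ∈ K, c (g * k * g⁻¹) = c k}
      one_mem' := fun k _ => by simp
      mul_mem' := fun {g h} hg hh k hk => by
        rw [← hh k hk, ← hg _ (hn.conj_mem k hk h)]
        congr 1
        group
      inv_mem' := fun {g} hg k hk => by
        rw [← hg _ (hn.conj_mem k hk g⁻¹)]
        congr 1
        group }
  refine ⟨St, FI.top_iff.1 (FI.of_finite_map le_top (fun g (s : S) => c (g⁻¹ * s * g)) ?_
    fun x _ y _ h k hk => ?_), fun g hg => hg⟩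
  · choose C hC using fun s : S => hb s (hS' s)
    refine (Set.Finite.pi' fun s : S => Set.finite_Icc (-⌈C s⌉) ⌈C s⌉).subset ?_
    rintro _ ⟨g, -, rfl⟩ s
    have h1 := hC s g⁻¹
    rw [inv_inv] at h1
    have h2 : |c (g⁻¹ * s * g)| ≤ ⌈C s⌉ := by
      exact_mod_cast h1.trans (Int.le_ceil _)
    exact abs_le.1 h2
  · have key : ∀ k ∈ K, c (x⁻¹ * k * x) = c (y⁻¹ * k * y) := fun k hk => by
      have hk' := hk
      rw [← hS] at hk'
      induction hk' using Subgroup.closure_induction with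
      | mem s hs => exact congrFun h ⟨s, hs⟩
      | one => exact (ha x).one.trans (ha y).one.symm
      | mul a b h1 h2 h3 h4 =>
        rw [hS] at h1 h2
        exact (ha x a h1 b h2).trans ((congrArg₂ (· + ·) (h3 h1) (h4 h2)).trans
          (ha y a h1 b h2).symm)
      | inv a h1 h2 =>
        rw [hS] at h1
        exact ((ha x).inv h1).trans ((congrArg Neg.neg (h2 h1)).trans ((ha y).inv h1).symm)
    have h1 := key _ (hn.conj_mem k hk y)
    rw [show y⁻¹ * (y * k * y⁻¹) * y = k by group] at h1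
    rw [← h1]
    congr 1
    group

/-- bounded orbits: every real character of a normal finite index subgroup of `M` which kills
`N` is bounded on the conjugacy classes of `Γ` -/
def Bdd {Γ : Type*} [Group Γ] (M N : Subgroup Γ) : Prop :=
  ∀ M1 : Subgroup Γ, M1.Normal → FI M1 M → ∀ b : Γ → ℝ, AddOn M1 b →
    (∀ m ∈ M1, m ∈ N → b m = 0) → ∀ m ∈ M1, ∃ C : ℝ, ∀ g, |b (g * m * g⁻¹)| ≤ C

/-- **NI**, the algebraic part -/
theorem ni_of_bdd {Γ : Type*} [Group Γ] {V : Type*} [NormedAddCommGroup V] [NormedSpace ℝ V]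
    [FiniteDimensional ℝ V] {N M H : Subgroup Γ} [N.Normal] [hM : M.Normal] [H.FiniteIndex]
    (hJ : JN (Γ ⧸ N)) (hfg : M.FG) (hN : N ≤ H) {lam : Γ → V} (hl : AddOn H lam)
    (h0 : ∀ m ∈ M, m ∈ H → lam m = 0)
    (maxb : ∀ H2 : Subgroup Γ, FI H2 H → N ≤ H2 → ∀ φ : Γ → ℝ, AddOn H2 φ →
      (∀ g ∈ N, φ g = 0) → ∃ l : V →L[ℝ] ℝ, ∀ g ∈ H2, φ g = l (lam g))
    (inj : ∀ l : V →L[ℝ] ℝ, (∀ g ∈ H, l (lam g) = 0) → l = 0)
    (heis : ∀ H2 : Subgroup Γ, FI H2 H → ∀ (B : V →L[ℝ] V →L[ℝ] ℝ) (β : Γ → ℝ),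
      (∀ g ∈ H2, ∀ h ∈ H2, β (g * h) = β g + β h + B (lam g) (lam h)) → ∀ v w, B v w = B w v)
    (bdd : Bdd M N) : ¬VInd (M.map (QuotientGroup.mk' N)) := by
  set π := QuotientGroup.mk' N with hπ
  have hs : Function.Surjective π := QuotientGroup.mk'_surjective N
  have hN1 : ∀ m ∈ N, π m = 1 := fun m hm => (QuotientGroup.eq_one_iff m).2 hm
  have hN2 : ∀ L : Subgroup (Γ ⧸ N), N ≤ L.comap π := fun L m hm =>
    Subgroup.mem_comap.2 (by rw [hN1 m hm]; exact L.one_mem)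
  have hfg' : (M.map π).FG := by
    classical
    obtain ⟨S, rfl⟩ := hfg
    exact ⟨S.image π, by rw [Finset.coe_image, MonoidHom.map_closure]⟩
  rintro ⟨K', h1, b0, h2, x, hx, h3⟩
  have := hM.map π hs
  obtain ⟨K, hK, h4, h5⟩ := h1.exists_normal hfg'
  obtain ⟨y, hy, h6⟩ : ∃ y ∈ K, b0 y ≠ 0 := by
    by_contra h
    push Not at h
    exact h3 (h2.eq_zero_of_fi (h5.of_le' h4 h1.le) h hx)
  obtain ⟨k, φ, h7, h8⟩ := End.exists_coord (h5.fg hfg') (h2.mono h4)
  obtain ⟨i, h9⟩ := not_forall.1 fun h => h6 ((h8 y hy).2 h)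
  have hb : AddOn (K.comap π) fun g => (φ i (π g) : ℝ) := fun g hg h hh => by
    simp only [map_mul, h7 i _ hg _ hh, Int.cast_add]
  have hb0 : ∀ m ∈ N, (φ i (π m) : ℝ) = 0 := fun m hm => by
    rw [hN1 m hm, (h7 i).one, Int.cast_zero]
  have h10 : FI (K.comap π ⊓ M) M := (h5.comap π).inf_right (M.le_comap_map π)
  obtain ⟨St, h11, h12⟩ := exists_stab (h5.fg hfg') (h7 i) fun k hk => by
    obtain ⟨m, hm, rfl⟩ := h5.le hk
    obtain ⟨C, hC⟩ := bdd _ inferInstance h10 _ (hb.mono inf_le_left) (fun m _ => hb0 m) m ⟨hk, hm⟩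
    refine ⟨C, fun g => ?_⟩
    obtain ⟨g, rfl⟩ := hs g
    simpa only [map_mul, map_inv] using hC g
  obtain ⟨Q, h13, h14⟩ := hJ.quot K hK (by
    rintro rfl
    exact h9 (by rw [Subgroup.mem_bot.1 hy, (h7 i).one]))
  have h15 : FI ((St ⊓ Q).comap π) ⊤ := by
    simpa using (FI.of_finiteIndex (St ⊓ Q)).comap π
  have h16 : FI ((St ⊓ Q).comap π ⊓ H) H := h15.inf_right le_top
  have h17 : N ≤ (St ⊓ Q).comap π ⊓ H := le_inf (hN2 _) hN
  obtain ⟨l, h18⟩ := End.e3 (H := (St ⊓ Q).comap π ⊓ H) (N := N) (lam := lam)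
    (M1 := K.comap π ⊓ ((St ⊓ Q).comap π ⊓ H)) inf_le_right
    (fun g hg h hh => ⟨Subgroup.mem_comap.2 (by
      rw [map_commutatorElement]; exact h14 _ hg.1.2 _ hh.1.2),
      comm_self_le _ (Subgroup.commutator_mem_commutator hg hh)⟩)
    (hb.mono inf_le_left)
    (fun g hg m hm => by simp only [map_mul, map_inv, h12 _ hg.1.1 _ hm.1])
    (le_inf (hN2 _) h17)
    hb0 (maxb _ h16 h17)
    (fun l h => inj l fun g hg => AddOn.eq_zero_of_fi (b := fun g => l (lam g))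
      (fun a ha b hb => by simp only [hl a ha b hb, map_add]) h16 h hg)
    (heis _ h16)
  obtain ⟨m, hm, rfl⟩ := h5.le hy
  have h19 : FI (((St ⊓ Q).comap π ⊓ H) ⊓ (K.comap π ⊓ M)) (K.comap π ⊓ M) :=
    (h16.trans (FI.of_finiteIndex H)).inf_right le_top
  have h20 := (hb.mono (inf_le_left (b := M))).eq_zero_of_fi h19 (fun g hg => by
    rw [h18 g ⟨hg.2.1, hg.1⟩, h0 g hg.2.2 hg.1.2, map_zero]) (x := m) ⟨hy, hm⟩
  exact h9 (by exact_mod_cast h20)

end Crest.Agent.X261.Ni
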