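import Crest.Agent.X261.Rel85.Nl

/-!
# X261 / NI (helper2), file `Bo`: locally `L¹`-bounded families, chaining along a fibre
-/

set_option autoImplicit false
set_option linter.unusedSectionVars false

noncomputable section

namespace Crest.Agent.X261.Ni

open Set Filter Topology MeasureTheory Metric Module
open scoped ENNReal NNReal
open Crest.Agent.X261.Rel85

variable {ι : Type*} {l : Filter ι}

/-- eventually bounded -/
def Bu (l : Filter ι) (a : ι → ℝ≥0∞) : Prop := ∃ C : ℝ≥0∞, C ≠ ⊤ ∧ ∀ᶠ j in l, a j ≤ C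

theorem Bu.of_le {a b : ι → ℝ≥0∞} (h : Bu l a) (h' : ∀ j, b j ≤ a j) : Bu l b :=
  h.imp fun _ hC => ⟨hC.1, hC.2.mono fun j hj => (h' j).trans hj⟩

theorem Bu.add {a b : ι → ℝ≥0∞} (h : Bu l a) (h' : Bu l b) : Bu l fun j => a j + b j := by
  obtain ⟨C, h1, h2⟩ := h
  obtain ⟨C', h3, h4⟩ := h'
  exact ⟨C + C', ENNReal.add_ne_top.2 ⟨h1, h3⟩, (h2.and h4).mono fun j hj => add_le_add hj.1 hj.2⟩

theorem Bu.mul {a : ι → ℝ≥0∞} (h : Bu l a) {c : ℝ≥0∞} (hc : c ≠ ⊤) : Bu l fun j => c * a j := by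
  obtain ⟨C, h1, h2⟩ := h
  exact ⟨c * C, ENNReal.mul_ne_top hc h1, h2.mono fun j hj => mul_le_mul_right hj _⟩

theorem Bu.sum {κ : Type*} (s : Finset κ) {a : κ → ι → ℝ≥0∞} (h : ∀ k ∈ s, Bu l (a k)) :
    Bu l fun j => ∑ k ∈ s, a k j := by
  classical
  induction s using Finset.induction_on with
  | empty => exact ⟨0, ENNReal.zero_ne_top, by simp⟩
  | insert k s hk ih =>
    simp only [Finset.sum_insert hk]
    exact (h k (Finset.mem_insert_self _ _)).add (ih fun k' h' => h k' (Finset.mem_insert_of_mem h'))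

theorem Bu.of_sq {a : ι → ℝ≥0∞} (h : Bu l fun j => a j ^ 2) : Bu l a := by
  obtain ⟨C, h1, h2⟩ := h
  refine ⟨1 + C, ENNReal.add_ne_top.2 ⟨ENNReal.one_ne_top, h1⟩, h2.mono fun j hj => ?_⟩
  rcases le_total (a j) 1 with h3 | h3
  · exact h3.trans le_self_add
  · exact (le_self_pow h3 two_ne_zero).trans (hj.trans le_add_self)

variable {E E' : Type*} [NormedAddCommGroup E] [NormedSpace ℝ E] [FiniteDimensional ℝ E]
  [MeasurableSpace E] [BorelSpace E] [NormedAddCommGroup E'] [NormedSpace ℝ E']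
  [FiniteDimensional ℝ E'] [MeasurableSpace E'] [BorelSpace E']
  {μ : Measure E} [μ.IsAddHaarMeasure] {μ' : Measure E'} [μ'.IsAddHaarMeasure]
  {M H : Type*} [TopologicalSpace M] [NormedAddCommGroup H]

/-- `L¹`-bounded near a point of a vector space -/
def Bt (l : Filter ι) (μ : Measure E) (t : E) (d : ι → E → H) : Prop :=
  ∃ V ∈ 𝓝 t, Bu l fun j => ∫⁻ z in V, ‖d j z‖ₑ ∂μ

/-- `L¹`-bounded near `x`, in the chart `e` -/
def Bo (l : Filter ι) (μ : Measure E) (e : OpenPartialHomeomorph M E) (x : M) (h : ι → M → H) :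
    Prop := Bt l μ (e x) fun j z => h j (e.symm z)

/-- continuous on a common neighbourhood -/
def Cn' {Y : Type*} [TopologicalSpace Y] (x : M) (h : ι → M → Y) : Prop :=
  ∃ O ∈ 𝓝 x, ∀ j, ContinuousOn (h j) O

theorem Cn'.comp {M' Y : Type*} [TopologicalSpace M'] [TopologicalSpace Y] {φ : M' → M} {x : M'}
    {h : ι → M → Y} (hh : Cn' (φ x) h) {O : Set M'} (hO : O ∈ 𝓝 x) (hφ : ContinuousOn φ O) :
    Cn' x fun j y => h j (φ y) := by
  obtain ⟨V, hV, h1⟩ := hh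
  exact ⟨O ∩ φ ⁻¹' V, inter_mem hO (hφ.continuousAt hO hV), fun j =>
    (h1 j).comp (hφ.mono inter_subset_left) fun _ hy => hy.2⟩

theorem Cn'.sub {x : M} {h h' : ι → M → H} (hh : Cn' x h) (hh' : Cn' x h') :
    Cn' x fun j y => h j y - h' j y := by
  obtain ⟨V, hV, h1⟩ := hh
  obtain ⟨V', hV', h2⟩ := hh'
  exact ⟨V ∩ V', inter_mem hV hV', fun j =>
    ((h1 j).mono inter_subset_left).sub ((h2 j).mono inter_subset_right)⟩

theorem Bt.sub {t : E} {d d' : ι → E → H} (h : Bt l μ t d) (h' : Bt l μ t d') (hc : Cn' t d) :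
    Bt l μ t fun j z => d j z - d' j z := by
  obtain ⟨V, hV, h1⟩ := h
  obtain ⟨V', hV', h2⟩ := h'
  obtain ⟨O, hO, h3⟩ := hc
  obtain ⟨W, h4, h5, h6⟩ := _root_.mem_nhds_iff.1 (inter_mem (inter_mem hV hV') hO)
  refine ⟨W, h5.mem_nhds h6, (h1.add h2).of_le fun j => ?_⟩
  refine le_trans ?_ (add_le_add (lintegral_mono_set fun z hz => (h4 hz).1.1)
    (lintegral_mono_set fun z hz => (h4 hz).1.2))
  rw [← lintegral_add_left' (aem h5.measurableSet ((h3 j).mono fun z hz => (h4 hz).2))]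
  exact lintegral_mono fun z => enorm_sub_le

theorem Bt.const {t : E} {β : ι → H} (h : Bt l μ t fun j _ => β j) :
    ∃ C : ℝ, ∀ᶠ j in l, ‖β j‖ ≤ C := by
  obtain ⟨V, hV, C, h1, h2⟩ := h
  obtain ⟨r, hr, h3⟩ := Metric.mem_nhds_iff.1 hV
  have h0 := (measure_ball_pos μ t hr).ne'
  refine ⟨(C / μ (ball t r)).toReal, h2.mono fun j hj => ?_⟩
  have h4 := (lintegral_mono_set h3).trans hj
  rw [setLIntegral_const] at h4
  simpa using ENNReal.toReal_mono (ENNReal.div_ne_top h1 h0)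
    ((ENNReal.le_div_iff_mul_le (Or.inl h0) (Or.inl measure_ball_lt_top.ne)).2 h4)

variable {e : OpenPartialHomeomorph M E} {e' : OpenPartialHomeomorph M E'} {x : M}
  {h h' : ι → M → H}

theorem Bo.trans (c : Cp e e' x) (hN : Bo l μ e x h) : Bo l μ' e' x h := by
  obtain ⟨V, hV, h1⟩ := hN
  obtain ⟨K, t, ht, hK⟩ := c.sm.exists_lipschitzOnWith
  obtain ⟨C, hC, h2⟩ := lint_comp_le μ μ' (c.symm.le.antisymm c.le) K
  have h3 : Tendsto (fun z => e (e'.symm z)) (𝓝 (e' x)) (𝓝 (e x)) := by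
    simpa [ContinuousAt, e'.left_inv c.mem'] using c.sm'.continuousAt
  obtain ⟨O, hO1, hO2, hO3⟩ :=
    _root_.eventually_nhds_iff.1 (c.ev.and (h3.eventually (inter_mem hV ht)))
  refine ⟨O, hO2.mem_nhds hO3, (h1.mul hC).of_le fun k => ?_⟩
  refine le_trans (le_of_eq (setLIntegral_congr_fun hO2.measurableSet fun z hz => ?_))
    ((h2 (fun z => e (e'.symm z)) (fun z => e' (e.symm z)) O hO2.measurableSet ?_ ?_ (hK.mono ?_)
      fun z => ‖h k (e.symm z)‖ₑ).trans (mul_le_mul_right (lintegral_mono_set ?_) _))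
  · simp only [e.left_inv (hO1 z hz).1.2]
  · exact e.continuousOn.comp (e'.continuousOn_symm.mono fun z hz => (hO1 z hz).1.1)
      fun z hz => (hO1 z hz).1.2
  · exact fun z hz => by simp only [e.left_inv (hO1 z hz).1.2, e'.right_inv (hO1 z hz).1.1]
  · rintro _ ⟨z, hz, rfl⟩; exact (hO1 z hz).2.2
  · rintro _ ⟨z, hz, rfl⟩; exact (hO1 z hz).2.1

theorem Bo.ev (hN : Bo l μ e x h) (hx : x ∈ e.source) : ∀ᶠ y in 𝓝 x, Bo l μ e y h := by
  obtain ⟨V, hV, h1⟩ := hN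
  exact ((e.continuousAt hx).eventually (eventually_mem_nhds_iff.2 hV)).mono
    fun y hy => ⟨V, hy, h1⟩

theorem Bo.sub (h1 : Bo l μ e x h) (h2 : Bo l μ e x h') (hx : x ∈ e.source) (hc : Cn' x h) :
    Bo l μ e x fun j y => h j y - h' j y :=
  Bt.sub h1 h2 (Cn'.comp (φ := e.symm) (by rwa [e.left_inv hx])
    (e.open_target.mem_nhds (e.map_source hx)) e.continuousOn_symm)

/-- functions of the first coordinate of a product chart -/
theorem bo_fst {e : OpenPartialHomeomorph M (E × E')} (hx : x ∈ e.source) {a : M → E}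
    (ha : ∀ u ∈ e.target, a (e.symm u) = u.1) {d : ι → E → H} (hd : Cn' (a x) d) :
    Bo l (μ.prod μ') e x (fun j y => d j (a y)) ↔ Bt l μ (a x) d := by
  obtain ⟨O, hO, h1⟩ := hd
  have h0 : a x = (e x).1 := by rw [← ha _ (e.map_source hx), e.left_inv hx]
  rw [h0] at hO ⊢
  have key : ∀ V ∈ 𝓝 (e x), ∃ r > 0, ball (e x) r ⊆ V ∧ ∀ j,
      ∫⁻ z in ball (e x) r, ‖d j (a (e.symm z))‖ₑ ∂μ.prod μ' =
        (∫⁻ t in ball (e x).1 r, ‖d j t‖ₑ ∂μ) * μ' (ball (e x).2 r) := fun V hV => by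
    obtain ⟨r, hr, h2⟩ := Metric.mem_nhds_iff.1 (inter_mem (inter_mem hV
      (e.open_target.mem_nhds (e.map_source hx))) (continuousAt_fst hO))
    refine ⟨r, hr, fun z hz => (h2 hz).1.1, fun j => ?_⟩
    rw [← lint_fst measurableSet_ball measurableSet_ball ((h1 j).mono fun t ht =>
      (h2 (show (t, (e x).2) ∈ ball (e x) r by
        rw [← ball_prod_same]; exact ⟨ht, mem_ball_self hr⟩)).2), ball_prod_same]
    exact setLIntegral_congr_fun measurableSet_ball fun z hz => by simp only [ha z (h2 hz).1.2]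
  constructor
  · rintro ⟨V, hV, h2⟩
    obtain ⟨r, hr, h3, h4⟩ := key V hV
    have h5 := (measure_ball_pos μ' (e x).2 hr).ne'
    refine ⟨_, ball_mem_nhds _ hr, (h2.mul (ENNReal.inv_ne_top.2 h5)).of_le fun j => ?_⟩
    refine le_trans (le_of_eq ?_) (mul_le_mul_right (lintegral_mono_set h3) _)
    rw [h4, mul_comm, mul_assoc, ENNReal.mul_inv_cancel h5 measure_ball_lt_top.ne, mul_one]
  · rintro ⟨V, hV, h2⟩
    obtain ⟨r, hr, h3, h4⟩ := key _ (continuousAt_fst hV)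
    refine ⟨_, ball_mem_nhds _ hr,
      (h2.mul (measure_ball_lt_top (μ := μ') (x := (e x).2) (r := r)).ne).of_le fun j => ?_⟩
    rw [h4, mul_comm]
    refine mul_le_mul_right (lintegral_mono_set fun t ht => ?_) _
    exact h3 (show (t, (e x).2) ∈ ball (e x) r by
      rw [← ball_prod_same]; exact ⟨ht, mem_ball_self hr⟩)

/-- chaining along a connected fibre; `B x h` is an abstract notion of local boundedness -/
theorem chain {T : Type*} [TopologicalSpace T] {B : M → (ι → M → H) → Prop}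
    {B' : (ι → T → H) → Prop} {a : M → T} (ha : Continuous a) {t : T} {Y : Set M}
    (hY : IsPreconnected Y) (ht : ∀ x ∈ Y, a x = t) {F : ι → M → H} (hF : ∀ j, Continuous (F j))
    (ev : ∀ x h, B x h → ∀ᶠ y in 𝓝 x, B y h)
    (sub : ∀ x h h', B x h → B x h' → Cn' x h → B x fun j y => h j y - h' j y)
    (fst : ∀ x ∈ Y, ∀ d, Cn' t d → (B x (fun j y => d j (a y)) ↔ B' d))
    (loc : ∀ x ∈ Y, ∃ c, Cn' t c ∧ B x fun j y => F j y - c j (a y)) {x y : M} (hx : x ∈ Y)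
    (hy : y ∈ Y) : ∃ c, Cn' t c ∧ (B x fun j y => F j y - c j (a y)) ∧
      B y fun j y => F j y - c j (a y) := by
  have hc : ∀ x ∈ Y, ∀ c, Cn' t c → Cn' x fun j y => F j y - c j (a y) := fun x hx c hc =>
    Cn'.sub ⟨univ, univ_mem, fun j => (hF j).continuousOn⟩
      (Cn'.comp (by rwa [ht x hx]) univ_mem ha.continuousOn)
  refine hY.induction₂' (fun x y => ∃ c, Cn' t c ∧ (B x fun j y => F j y - c j (a y)) ∧
    B y fun j y => F j y - c j (a y)) (fun x hx => ?_) ?_ hx hy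
  · obtain ⟨c, h1, h2⟩ := loc x hx
    exact ((ev _ _ h2).mono fun y hy => ⟨⟨c, h1, h2, hy⟩, c, h1, hy, h2⟩).filter_mono
      nhdsWithin_le_nhds
  · rintro x y z - hy hz ⟨c, h1, h2, h3⟩ ⟨c', h4, h5, h6⟩
    have h7 := sub _ _ _ h5 h3 (hc y hy c' h4)
    simp only [sub_sub_sub_cancel_left] at h7
    have h8 := sub _ _ _ h6 ((fst z hz _ (h1.sub h4)).2 ((fst y hy _ (h1.sub h4)).1 h7))
      (hc z hz c' h4)
    simp only [sub_sub, add_sub_cancel] at h8
    exact ⟨c, h1, h2, h8⟩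

end Crest.Agent.X261.Ni
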