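import Crest.Agent.X261.Ni.Tr
import Crest.Agent.X261.Ni.Bo
import Crest.Agent.X261.Rel.Null

/-!
# X261 / NI (helper2), file `An`: the periods of the translates along a fibre are bounded
-/

set_option autoImplicit false
set_option linter.unusedSectionVars false

open Set Filter Topology Complex Matrix MeasureTheory Metric
open scoped ENNReal

namespace Crest.Agent.X261.Ni

open Crest.Agent.R275.Geo
open Crest.Agent.R275.OmT75 (dl dj)
open Crest.Agent.R273.UCov_914
open Crest.Agent.R273.Fock_243 (FI eW ep)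
open Crest.Agent.X261.Top (dW)
open Crest.Agent.X261.Plk (w1)
open Crest.Agent.X261.Rel Crest.Agent.X261.Rel.Bx Crest.Agent.X261.Rel85

noncomputable section

variable {n q : ℕ}

section atl

variable {M : Type} [TopologicalSpace M] {B : Atl n M}

theorem cd_atl {i j : B.ι} {x : M} (hi : x ∈ (B.e i).source) (hj : x ∈ (B.e j).source) :
    ContDiffAt ℝ 1 (fun z => B.e j ((B.e i).symm z)) (B.e i x) := by
  have h1 : IsOpen ((B.e i).target ∩ (B.e i).symm ⁻¹' (B.e j).source) :=
    (B.e i).isOpen_inter_preimage_symm (B.e j).open_source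
  exact ((R266.SCV.analyticOnNhd_of_differentiableOn h1 (B.holo i j) _
    ⟨(B.e i).map_source hi, by rwa [mem_preimage, (B.e i).left_inv hi]⟩).contDiffAt).restrict_scalars ℝ

theorem cp_atl {i j : B.ι} {x : M} (hi : x ∈ (B.e i).source) (hj : x ∈ (B.e j).source) :
    Cp (B.e i) (B.e j) x := ⟨hi, hj, cd_atl hi hj, cd_atl hj hi⟩

theorem cont_of_sm {W : Type*} [NormedAddCommGroup W] [NormedSpace ℝ W] {f : M → W}
    (h : ∀ i, ContinuousOn (fun z => f ((B.e i).symm z)) (B.e i).target) : Continuous f := by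
  refine continuous_iff_continuousAt.2 fun x => ?_
  obtain ⟨i, hi⟩ := B.cover x
  refine (((h i).continuousAt ((B.e i).open_target.mem_nhds ((B.e i).map_source hi))).comp
    ((B.e i).continuousAt hi)).congr ?_
  filter_upwards [(B.e i).open_source.mem_nhds hi] with y hy
  simp only [Function.comp, (B.e i).left_inv hy]

variable {e : OpenPartialHomeomorph M (Cn n)} {x : M} {a : Cn n → Cn q} {U : Set (Cn n)}

theorem box_ctr (Q : Box a (e x) U) : Q.s.symm (e x) = Q.o :=
  (congrArg Q.s.symm Q.ctr).symm.trans (Q.s.left_inv (Q.sub (mem_closedBall_self Q.pos.le)))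

theorem cp_box (hx : x ∈ e.source) (Q : Box a (e x) U) : Cp e (e.trans Q.s.symm) x := by
  have h1 : e x ∈ Q.s.target := Q.W_sub Q.mem_W
  have h2 : Q.o ∈ Q.s.source := Q.sub (mem_closedBall_self Q.pos.le)
  refine ⟨hx, ⟨hx, h1⟩, ?_, ?_⟩
  · refine (((Q.an_symm _ h1).contDiffAt).restrict_scalars ℝ).congr_of_eventuallyEq ?_
    filter_upwards [e.open_target.mem_nhds (e.map_source hx)] with z hz
    exact congrArg Q.s.symm (e.right_inv hz)
  · change ContDiffAt ℝ 1 (fun u => e (e.symm (Q.s u))) (Q.s.symm (e x))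
    rw [box_ctr]
    refine (((Q.an _ h2).contDiffAt).restrict_scalars ℝ).congr_of_eventuallyEq ?_
    have h3 : Q.s ⁻¹' e.target ∈ 𝓝 Q.o := Q.s.continuousAt h2 (by
      rw [Box.o, Q.ctr]; exact e.open_target.mem_nhds (e.map_source hx))
    filter_upwards [h3] with u hu
    exact e.right_inv hu

end atl

theorem sq_add_le (a b : ℝ≥0∞) : (a + b) ^ 2 ≤ 4 * a ^ 2 + 4 * b ^ 2 := by
  rcases le_total a b with h | h
  · calc (a + b) ^ 2 ≤ (b + b) ^ 2 := by gcongr
      _ = 4 * b ^ 2 := by ring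
      _ ≤ _ := le_add_self
  · calc (a + b) ^ 2 ≤ (a + a) ^ 2 := by gcongr
      _ = 4 * a ^ 2 := by ring
      _ ≤ _ := le_self_add

variable {H : Type} [NormedAddCommGroup H] [InnerProductSpace ℂ H] [CompleteSpace H]

theorem bt_congr {ι E : Type*} {l : Filter ι} [NormedAddCommGroup E] [MeasurableSpace E]
    [BorelSpace E] {μ : Measure E} {t : E} {d d' : ι → E → H} (h : Bt l μ t d)
    (hh : ∀ᶠ z in 𝓝 t, ∀ j, d j z = d' j z) : Bt l μ t d' := by
  obtain ⟨V, hV, h1⟩ := h
  obtain ⟨O, h2, h3, h4⟩ := _root_.eventually_nhds_iff.1 (hh.and hV)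
  exact ⟨O, h3.mem_nhds h4, h1.of_le fun j => le_trans (le_of_eq (setLIntegral_congr_fun
    h3.measurableSet fun z hz => by simp only [(h2 z hz).1 j]))
    (lintegral_mono_set fun z hz => (h2 z hz).2)⟩

/-- the local estimate in a box -/
theorem box_bd {ι : Type*} {l : Filter ι} {a : Cn n → Cn q} {z₀ : Cn n} {U : Set (Cn n)}
    (Q : Box a z₀ U) (J : H ≃ₗᵢ⋆[ℂ] H) {f : ι → Cn n → H} (hf : ∀ j, ContDiffOn ℝ 1 (f j) Q.W)
    (hJ : ∀ j z, J (f j z) = f j z)
    (h : ∀ I, Bu l fun j => ∫⁻ z in Q.W, ‖w1 (ta a z) (fun b => dj b (f j) z) I‖ₑ ^ 2) :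
    ∃ c : ι → Cn q → H, Cn' (a z₀) c ∧
      Bt l (volume.prod volume) Q.o fun j u => f j (Q.s u) - c j u.1 := by
  obtain ⟨C, hC, h1⟩ := Q.null_le J
  choose c h2 h3 using fun j => h1 (f j) (fun _ => 0) (hf j) (fun z _ => hJ j z)
    (differentiableOn_const 0)
  have := Box.haar q Q.r
  refine ⟨c, ⟨_, ball_mem_nhds _ Q.pos, h2⟩, _, ball_mem_nhds _ Q.pos, Bu.of_sq
    ((((Bu.sum Finset.univ fun I _ => h I).mul hC).mul (measure_ball_lt_top
      (μ := volume.prod volume) (x := Q.o) (r := Q.ρ)).ne).of_le fun j => ?_)⟩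
  have h4 : ContinuousOn (fun u => f j (Q.s u) - c j u.1) (ball Q.o Q.ρ) :=
    ((hf j).continuousOn.comp (Q.s.continuousOn.mono Q.sub') (mapsTo_image _ _)).sub
      ((h2 j).comp continuousOn_fst fun u hu => (Q.ball_eq ▸ hu).1)
  refine (sq_lintegral_le _ (aem measurableSet_ball h4)).trans ?_
  rw [Measure.restrict_apply_univ]
  refine mul_le_mul_right ?_ _
  simpa [dj, w1] using h3 j

variable {X : Type} [TopologicalSpace X] {A : Atl n X} {G : Type} [Group G]
variable {D : MonD A G} {al : D.cov G → Cn q} {L : G → Cn q →L[ℂ] Cn q} {lam : G → Cn q}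

theorem ta_eq (i : A.ι) (v : G) {z : Cn n} (hz : z ∈ (A.e i).target) :
    ta (fun z => aV D al i v ((A.e i).symm z)) z = dW A i (aV D al i v) ((A.e i).symm z) := by
  unfold dW dl
  rw [(A.e i).right_inv hz]
  rfl

theorem w1_eq (f : D.cov G → H) (i : A.ι) (v : G) {z : Cn n} (hz : z ∈ (A.e i).target) (I : FI n) :
    w1 (ta (fun z => aV D al i v ((A.e i).symm z)) z)
      (fun b => dj b (fun z => aV D f i v ((A.e i).symm z)) z) I =
      Rel.tw D al f i v ((A.e i).symm z) I := by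
  unfold Rel.tw dl
  rw [(A.e i).right_inv hz, ta_eq i v hz]
  rfl

/-- `∀ g, ∀ᶠ k` -/
def fl (G : Type) : Filter (G × ℕ) := ⨆ g, map (Prod.mk g) atTop

theorem ev_fl {P : G × ℕ → Prop} : (∀ᶠ j in fl G, P j) ↔ ∀ g, ∀ᶠ k in atTop, P (g, k) := by
  simp only [fl, eventually_iSup, eventually_map]

/-- locally bounded on the cover -/
def Bg (D : MonD A G) (x : D.cov G) (h : G × ℕ → D.cov G → H) : Prop :=
  ∃ p, x ∈ ((D.atl G).e p).source ∧ Bo (fl G) volume ((D.atl G).e p) x h

theorem Bg.all {x : D.cov G} {h : G × ℕ → D.cov G → H} (hh : Bg D x h) {p : (D.atl G).ι}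
    (hp : x ∈ ((D.atl G).e p).source) : Bo (fl G) volume ((D.atl G).e p) x h := by
  obtain ⟨p', h1, h2⟩ := hh
  exact h2.trans (cp_atl h1 hp)

theorem Bg.sub {x : D.cov G} {h h' : G × ℕ → D.cov G → H} (h1 : Bg D x h) (h2 : Bg D x h')
    (hc : Cn' x h) : Bg D x fun j y => h j y - h' j y := by
  obtain ⟨p, h3, h4⟩ := h1
  exact ⟨p, h3, h4.sub (h2.all h3) h3 hc⟩

theorem Bg.deck {x : D.cov G} {h : G × ℕ → D.cov G → H} {m : G} (h1 : Bg D (m • x) h) :
    Bg D x fun j y => h j (m • y) := by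
  obtain ⟨p, h2, h3⟩ := h1
  refine ⟨(p.1, p.2 * m), D.deck_mem_sheet.1 h2, ?_⟩
  change Bt _ _ _ fun j z => h j (m • D.pt p.1 (p.2 * m) _)
  simp only [D.deck_pt, mul_inv_cancel_right]
  exact h3

theorem bg_box {x : D.cov G} {p : (D.atl G).ι} (hp : x ∈ ((D.atl G).e p).source) {U : Set (Cn n)}
    {a : Cn n → Cn q} (Q : Box a ((D.atl G).e p x) U) {h : G × ℕ → D.cov G → H} :
    Bg D x h ↔ Bo (fl G) (volume.prod volume) (((D.atl G).e p).trans Q.s.symm) x h :=
  have := Box.haar q Q.r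
  ⟨fun h1 => (h1.all hp).trans (cp_box hp Q), fun h1 => ⟨p, hp, h1.trans (cp_box hp Q).symm⟩⟩

/-- **bounded periods** -/
theorem Aff.bdd (h : Aff D al L lam) {f : ℕ → D.cov G → H} {S : A.ι → G → X → FI n → H}
    (hl : Lim D al f S) (hu : Up D al S) (J : H ≃ₗᵢ⋆[ℂ] H) (hJ : ∀ k e, J (f k e) = f k e)
    {x : D.cov G} (hY : IsPreconnected (al ⁻¹' {al x}))
    (reg : ∀ i v, ∀ y ∈ (A.e i).source, al (D.pt i v y) = al x → dW A i (aV D al i v) y ≠ 0)
    {m : G} (hm : ∀ e, al (m • e) = al e) {β : G → H}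
    (hβ : ∀ g k e, f k (g • m • e) = f k (g • e) + β g) : ∃ C : ℝ, ∀ g, ‖β g‖ ≤ C := by
  have ha : Continuous al := cont_of_sm (B := D.atl G) fun p => (h.hol p).continuousOn
  have hF : ∀ j : G × ℕ, Continuous fun e => f j.2 (j.1 • e) := fun j =>
    (cont_of_sm (B := D.atl G) fun p => (hl.f_sm j.2 p).continuousOn).comp (continuous_const_smul _)
  have hb : ∀ y ∈ al ⁻¹' {al x}, ∀ p : (D.atl G).ι, y ∈ ((D.atl G).e p).source → Nonempty (Box
      (fun z => aV D al p.1 p.2 ((A.e p.1).symm z)) ((D.atl G).e p y) (A.e p.1).target) :=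
    fun y hy p hp => exists_box (A.e p.1).open_target ((A.e p.1).map_source hp.1) (h.diff p.1 p.2)
      ((ta_eq p.1 p.2 ((A.e p.1).map_source hp.1)).trans_ne (by
        rw [(A.e p.1).left_inv hp.1]
        exact reg _ _ _ hp.1 ((congrArg al (D.pt_of_mem hp)).trans hy)))
  obtain ⟨c, h1, h2, h3⟩ := chain (B := Bg D) (B' := Bt (fl G) volume (al x)) (H := H) ha hY
    (fun _ hy => hy) hF
    (fun y _ ⟨p, h1, h2⟩ => ((h2.ev h1).and (((D.atl G).e p).open_source.mem_nhds h1)).mono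
      fun _ hz => ⟨p, hz.2, hz.1⟩)
    (fun _ _ _ => Bg.sub) (fun y hy d hd => by
      obtain ⟨p, hp⟩ := (D.atl G).cover y
      obtain ⟨Q⟩ := hb y hy p hp
      have := Box.haar q Q.r
      rw [← show al y = al x from hy] at hd ⊢
      exact (bg_box hp Q).trans (bo_fst (cp_box hp Q).mem' (fun u hu => Q.fst u hu.1) hd))
    (fun y hy => by
      obtain ⟨p, hp⟩ := (D.atl G).cover y
      obtain ⟨Q⟩ := hb y hy p hp
      obtain ⟨C, hC⟩ := h.bd_tr hl.S_hol hu p.1 ((A.e p.1).map_source hp.1)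
      obtain ⟨ρ, h0, h1, h2⟩ := Q.exists_shrink hC
      set Q' := Q.shrink h0 h1
      obtain ⟨c, h3, h4⟩ := box_bd (l := fl G) Q' J
        (f := fun j z => aV D (fun e => f j.2 (j.1 • e)) p.1 p.2 ((A.e p.1).symm z))
        (fun j => ((sm_deck (hl.f_sm j.2) j.1 p).of_le (by simp)).mono Q'.W_sub_U)
        (fun j z => hJ _ _) fun I => ⟨4 * 1 + 4 * ENNReal.ofReal C ^ 2 * volume Q'.K,
          (by have := Q'.isCompact_K.measure_lt_top (μ := volume); finiteness), ev_fl.2 fun g => by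
          filter_upwards [((h.lim_tr hl g).lim p.1 p.2 _ Q'.K_sub_U Q'.isCompact_K I).eventually
            (ge_mem_nhds zero_lt_one)] with k hk
          refine (lintegral_mono_set Q'.W_sub_K).trans (le_trans ?_ (add_le_add
            (mul_le_mul_right hk 4) le_rfl))
          rw [← lintegral_const_mul' _ _ (by simp), ← setLIntegral_const,
            ← lintegral_add_right _ measurable_const]
          refine setLIntegral_mono' Q'.isCompact_K.measurableSet fun z hz => ?_
          rw [w1_eq _ _ _ (Q'.K_sub_U hz)]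
          refine le_trans ?_ (sq_add_le _ _)
          refine pow_le_pow_left' ?_ 2
          refine le_trans (by rw [sub_add_cancel]) ((enorm_add_le _
            (trS L S g p.1 p.2 ((A.e p.1).symm z) I)).trans (add_le_add le_rfl ?_))
          rw [← ofReal_norm]
          exact ENNReal.ofReal_le_ofReal (h2 hz g p.2 I)⟩
      have h5 : aV D al p.1 p.2 ((A.e p.1).symm ((D.atl G).e p y)) = al x :=
        (congrArg al (((D.atl G).e p).left_inv hp)).trans hy
      refine ⟨c, h5 ▸ h3, (bg_box hp Q').2 ?_⟩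
      change Bt _ _ (Q'.s.symm ((D.atl G).e p y)) _
      rw [box_ctr Q']
      refine bt_congr h4 ?_
      filter_upwards [Q'.s.open_source.mem_nhds (Q'.sub (mem_closedBall_self Q'.pos.le))]
        with u hu j
      exact congrArg (fun t => _ - c j t) (Q'.fst u hu).symm)
    (x := x) (y := m • x) rfl (hm x)
  have h4 := h3.deck.sub h2 (Cn'.sub ⟨univ, univ_mem, fun j =>
    ((hF j).comp (continuous_const_smul m)).continuousOn⟩
    (Cn'.comp (by rwa [hm]) univ_mem (ha.comp (continuous_const_smul m)).continuousOn))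
  simp only [hm, hβ, sub_sub_sub_cancel_right, add_sub_cancel_left] at h4
  obtain ⟨p, -, h5⟩ := h4
  obtain ⟨C, hC⟩ := Bt.const h5
  exact ⟨C, fun g => (ev_fl.1 hC g).exists.choose_spec⟩

end

end Crest.Agent.X261.Ni
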