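import Crest.Agent.X261.Ni.An
import Crest.Agent.X261.Ni.Alg

/-!
# X261 / NI (helper2), file `Bd`: bounded orbits of characters
-/

set_option autoImplicit false

open Set

namespace Crest.Agent.X261.Ni

open Crest.Agent.R275.Geo Crest.Agent.R273.UCov_914
open Crest.Agent.X261.Top (dW)
open Crest.Agent.X261.Grp Crest.Agent.X261.Rel Crest.Agent.X261.Rel.Act

noncomputable section

/-- the translation action of a real character -/
def tra {Γ : Type} [Group Γ] {M : Subgroup Γ} {b : Γ → ℝ} (hb : AddOn M b) : Act M ℂ where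
  π := 1
  J := starₗᵢ ℂ
  JJ x := star_star x
  Jπ _ _ := rfl
  b m := (b m : ℂ)
  Jb m := Complex.conj_ofReal _
  coc g h := by
    rw [Subgroup.coe_mul, hb _ g.2 _ h.2, Complex.ofReal_add]
    rfl

theorem tra_α {Γ : Type} [Group Γ] {M : Subgroup Γ} {b : Γ → ℝ} (hb : AddOn M b) (m : M) (x : ℂ) :
    (tra hb).α m x = x + b m := rfl

variable {n q : ℕ} {X : Type} [TopologicalSpace X] {A : Atl n X} {G : Type} [Group G]
  {D : MonD A G} {al : D.cov G → Cn q} {L : G → Cn q →L[ℂ] Cn q} {lam : G → Cn q}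

theorem Aff.bdd_of (h : Aff D al L lam) {M N : Subgroup G} (hM : ∀ m ∈ M, ∀ e, al (m • e) = al e)
    {x : D.cov G} (hY : IsPreconnected (al ⁻¹' {al x}))
    (reg : ∀ i v, ∀ y ∈ (A.e i).source, al (D.pt i v y) = al x → dW A i (aV D al i v) y ≠ 0)
    (fam : ∀ M1 : Subgroup G, M1.Normal → FI M1 M → ∀ a : Act M1 ℂ,
      (∀ m : M1, (m : G) ∈ N → ∀ x, a.α m x = x) → Nonempty (Min D al a N)) : Bdd M N := by
  intro M1 h1 h2 b hb h0 m hm
  obtain ⟨Q⟩ := fam M1 h1 h2 (tra hb) fun m hm x => by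
    rw [tra_α, h0 m m.2 hm, Complex.ofReal_zero, add_zero]
  obtain ⟨C, hC⟩ := h.bdd Q.lim Q.up _ Q.f_re hY reg (hM m (h2.le hm))
    (β := fun g => (b (g * m * g⁻¹) : ℂ)) fun g k e => by
      have h3 := Q.f_eqv k ⟨_, h1.conj_mem m hm g⟩ (g • e)
      rw [tra_α] at h3
      rw [← h3, smul_smul, smul_smul, inv_mul_cancel_right]
  exact ⟨C, fun g => by simpa using hC g⟩

end

end Crest.Agent.X261.Ni
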