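import Crest.Agent.X261.Rel.Defs
import Crest.Agent.X261.Gauss.NPa

/-!
# X261 / NI (helper2), file `Tr`: the translates of a minimal form

* `Aff D al L lam` : `al` is holomorphic and equivariant for an affine action with `|det| = 1`;
* `trS L S g`      : the limit form of the maps `f k (g • ·)`; `lim_tr`;
* `bd_tr`          : the translates are locally uniformly bounded;
* `SL om S`        : the translates as one form with values in `Li Ω H`; `SL_apply`, `SL_hol`.
-/

set_option autoImplicit false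
set_option linter.unusedSectionVars false

open Set Filter Topology Complex Matrix MeasureTheory Metric
open scoped ENNReal

namespace Crest.Agent.X261.Ni

open Crest.Agent.R275.Geo
open Crest.Agent.R275.OmT75 (dl dj)
open Crest.Agent.R273.UCov_914
open Crest.Agent.R273.Fock_243 (FI eW ep)
open Crest.Agent.X261.Top (dW HolV wdg)
open Crest.Agent.X261.Rel Crest.Agent.X261.Rel.Act Crest.Agent.X261.Rel.Ms

noncomputable section

variable {n q : ℕ}

/-! ### flat lemmas -/

/-- the matrix of an endomorphism of `ℂ^q` -/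
def mx (L : Cn q →L[ℂ] Cn q) : Matrix (Fin q) (Fin q) ℂ :=
  Matrix.of fun k l => L (EuclideanSpace.single l 1) k

theorem det_mx (L : Cn q →L[ℂ] Cn q) : (mx L).det = L.det := by
  rw [ContinuousLinearMap.det, ← LinearMap.det_toMatrix (EuclideanSpace.basisFun (Fin q) ℂ).toBasis]
  congr 1

theorem mx_apply (L : Cn q →L[ℂ] Cn q) (w : Cn q) (k : Fin q) : L w k = ∑ l, mx L k l * w l := by
  conv_lhs => rw [← (EuclideanSpace.basisFun (Fin q) ℂ).sum_repr w, map_sum]
  simp [mx, mul_comm]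

theorem wdg_mx (L : Cn q →L[ℂ] Cn q) (v : Fin n → Cn q) :
    (wdg fun k a => L (v a) k) = L.det • wdg fun k a => v a k := by
  ext S
  rw [Pi.smul_apply, smul_eq_mul]
  unfold wdg
  split_ifs with h
  · rw [← det_mx, ← Matrix.det_mul]
    congr 1
    ext a b
    exact mx_apply L _ a
  · rw [mul_zero]

theorem vol_aff (L : Cn q →L[ℂ] Cn q) (h : ‖L.det‖ = 1) (l : Cn q) (T : Set (Cn q)) :
    volume ((fun t => L t + l) '' T) = volume T := by
  have h1 : (fun t => L t + l) '' T = (fun t => t + l) '' ((L.restrictScalars ℝ) '' T) := by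
    rw [image_image]; rfl
  rw [h1, image_add_right, measure_preimage_add_right, Measure.addHaar_image_continuousLinearMap]
  have := Gauss.NP.det_real L
  rw [h] at this
  change ENNReal.ofReal |(L.restrictScalars ℝ).det| * _ = _
  rw [this]
  simp

theorem dj_hol {W : Type*} [NormedAddCommGroup W] [NormedSpace ℂ W] {a : Fin n} {f : Cn n → W}
    {z : Cn n} (hf : DifferentiableAt ℂ f z) :
    dj a f z = fderiv ℂ f z (EuclideanSpace.single a 1) := by
  have h : EuclideanSpace.single a I = I • (EuclideanSpace.single a (1 : ℂ) : Cn n) := by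
    ext b; simp
  unfold dj
  rw [hf.fderiv_restrictScalars ℝ, h]
  simp only [ContinuousLinearMap.coe_restrictScalars', map_smul, smul_smul, I_mul_I]
  module

/-- uniform bounds from `L²` bounds -/
theorem bd_of_sq {ι : Type*} {H : Type} [NormedAddCommGroup H] [NormedSpace ℂ H]
    {U V : Set (Cn n)} (hU : IsOpen U) {z₀ : Cn n} (hz : z₀ ∈ U) (hV : V ∈ 𝓝 z₀)
    {g : ι → Cn n → H} (hg : ∀ j, DifferentiableOn ℂ (g j) U)
    (h : ∀ K ⊆ U ∩ V, IsCompact K → ∃ C : ℝ≥0∞, C < ⊤ ∧ ∀ j, ∫⁻ z in K, ‖g j z‖ₑ ^ 2 ≤ C) :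
    ∃ C : ℝ, ∀ᶠ z in 𝓝 z₀, ∀ j, ‖g j z‖ ≤ C := by
  obtain ⟨r, hr, h1⟩ := nhds_basis_closedBall.mem_iff.1 (inter_mem (hU.mem_nhds hz) hV)
  obtain ⟨C, hC, h2⟩ := h _ h1 (isCompact_closedBall _ _)
  have h0 : volume (ball (0 : Cn n) (r / 2)) ≠ 0 := (measure_ball_pos _ _ (half_pos hr)).ne'
  have h3 : C / volume (ball (0 : Cn n) (r / 2)) ≠ ⊤ := ENNReal.div_ne_top hC.ne h0
  refine ⟨√(C / volume (ball (0 : Cn n) (r / 2))).toReal, ?_⟩
  filter_upwards [ball_mem_nhds z₀ (half_pos hr)] with z hz j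
  have h4 : ball z (r / 2) ⊆ closedBall z₀ r := fun y hy => by
    have := dist_triangle y z z₀
    rw [mem_ball] at hy hz
    rw [mem_closedBall]
    linarith
  have h5 := Gauss.NP.submean volume (g := g j) (u := z) (B' := ball z (r / 2))
    (isOpen_ball (x := 0) (ε := r / 2)) (balanced_ball_zero) (fun v => by simp [dist_eq_norm])
    fun v hv => (hg j).differentiableAt (hU.mem_nhds (h1 (h4 hv)).1)
  rw [Measure.addHaar_ball_center] at h5
  have h6 := (ENNReal.le_div_iff_mul_le (Or.inl h0) (Or.inl measure_ball_lt_top.ne)).2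
    (h5.trans ((lintegral_mono_set h4).trans (h2 j)))
  refine Real.le_sqrt_of_sq_le ?_
  have h7 := ENNReal.toReal_mono h3 h6
  simpa using h7

/-! ### translates -/

variable {X : Type} [TopologicalSpace X] {A : Atl n X} {G : Type} [Group G]
variable {H : Type} [NormedAddCommGroup H] [InnerProductSpace ℂ H]

theorem dW_fd {i : A.ι} {f : X → Cn q} {x : X} {T : Cn n →L[ℂ] Cn q}
    (hf : HasFDerivAt (fun z => f ((A.e i).symm z)) T (A.e i x)) :
    dW A i f x = wdg fun k a => T (EuclideanSpace.single a 1) k := by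
  unfold dW
  congr 1
  ext k a
  have h1 : HasFDerivAt (fun z => f ((A.e i).symm z) k) _ (A.e i x) :=
    (EuclideanSpace.proj k : Cn q →L[ℂ] ℂ).hasFDerivAt.comp _ hf
  unfold dl
  rw [dj_hol h1.differentiableAt, h1.fderiv]
  rfl

theorem dW_aff {i : A.ι} {f : X → Cn q} {x : X}
    (hf : DifferentiableAt ℂ (fun z => f ((A.e i).symm z)) (A.e i x)) (L : Cn q →L[ℂ] Cn q)
    (l : Cn q) : dW A i (fun y => L (f y) + l) x = L.det • dW A i f x := by
  rw [dW_fd (f := fun y => L (f y) + l) ((L.hasFDerivAt.comp _ hf.hasFDerivAt).add_const l),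
    dW_fd hf.hasFDerivAt, ← wdg_mx]
  rfl

/-- `al` is holomorphic and equivariant for an affine action preserving the volume -/
structure Aff (D : MonD A G) (al : D.cov G → Cn q) (L : G → Cn q →L[ℂ] Cn q) (lam : G → Cn q) :
    Prop where
  hol : ∀ p, DifferentiableOn ℂ (fun z => al (((D.atl G).e p).symm z)) ((D.atl G).e p).target
  eqv : ∀ g e, al (g • e) = L g (al e) + lam g
  det : ∀ g, ‖(L g).det‖ = 1

variable {D : MonD A G} {al : D.cov G → Cn q} {L : G → Cn q →L[ℂ] Cn q} {lam : G → Cn q}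

theorem aV_deck {W : Type*} (f : D.cov G → W) (g : G) (i : A.ι) (v : G) :
    aV D (fun e => f (g • e)) i v = aV D f i (v * g⁻¹) :=
  funext fun x => congrArg f (D.deck_pt g i v x)

theorem Aff.aV_eq (h : Aff D al L lam) (g : G) (i : A.ι) (v : G) :
    aV D al i (v * g⁻¹) = fun x => L g (aV D al i v x) + lam g := by
  rw [← aV_deck]
  exact funext fun x => h.eqv g _

theorem Aff.diff (h : Aff D al L lam) (i : A.ι) (v : G) :
    DifferentiableOn ℂ (fun z => aV D al i v ((A.e i).symm z)) (A.e i).target := h.hol (i, v)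

theorem Aff.det_ne (h : Aff D al L lam) (g : G) : (L g).det ≠ 0 := fun h0 => by
  simpa [h0] using h.det g

theorem Aff.dW_eq (h : Aff D al L lam) (g : G) {i : A.ι} (v : G) {x : X}
    (hx : x ∈ (A.e i).source) :
    dW A i (aV D al i (v * g⁻¹)) x = (L g).det • dW A i (aV D al i v) x := by
  rw [h.aV_eq]
  exact dW_aff ((h.diff i v).differentiableAt
    ((A.e i).open_target.mem_nhds ((A.e i).map_source hx))) _ _

theorem Aff.tw_eq (h : Aff D al L lam) (f : D.cov G → H) (g : G) {i : A.ι} (v : G) {x : X}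
    (hx : x ∈ (A.e i).source) (I : FI n) :
    Rel.tw D al (fun e => f (g • e)) i v x I = (L g).det⁻¹ • Rel.tw D al f i (v * g⁻¹) x I := by
  unfold Rel.tw
  rw [aV_deck, h.dW_eq g v hx, Finset.smul_sum]
  refine Finset.sum_congr rfl fun b _ => ?_
  rw [Matrix.mulVec_smul, Pi.smul_apply, smul_smul, smul_eq_mul, inv_mul_cancel_left₀ (h.det_ne g)]

theorem Aff.vol_eq (h : Aff D al L lam) (g : G) (i : A.ι) (v : G) (K : Set (Cn n)) :
    volume ((fun z => aV D al i (v * g⁻¹) ((A.e i).symm z)) '' K) =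
      volume ((fun z => aV D al i v ((A.e i).symm z)) '' K) := by
  rw [← vol_aff (L g) (h.det g) (lam g) ((fun z => aV D al i v ((A.e i).symm z)) '' K),
    image_image, h.aV_eq]

/-- the translate of a form -/
def trS (L : G → Cn q →L[ℂ] Cn q) (S : A.ι → G → X → FI n → H) (g : G) (i : A.ι) (v : G) (x : X)
    (I : FI n) : H := (L g).det⁻¹ • S i (v * g⁻¹) x I

theorem Aff.norm_trS (h : Aff D al L lam) (S : A.ι → G → X → FI n → H) (g : G) (i : A.ι) (v : G)
    (x : X) (I : FI n) : ‖trS L S g i v x I‖ = ‖S i (v * g⁻¹) x I‖ := by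
  rw [trS, norm_smul, norm_inv, h.det, inv_one, one_mul]

theorem sm_deck {W : Type*} [NormedAddCommGroup W] [NormedSpace ℝ W] {f : D.cov G → W}
    (hf : (D.atl G).Sm f) (g : G) : (D.atl G).Sm fun e => f (g • e) := fun p =>
  (hf (p.1, p.2 * g⁻¹)).congr fun _ _ => congrArg f (D.deck_pt g p.1 p.2 _)

theorem Aff.lim_tr (h : Aff D al L lam) {f : ℕ → D.cov G → H} {S : A.ι → G → X → FI n → H}
    (hl : Lim D al f S) (g : G) : Lim D al (fun k e => f k (g • e)) (trS L S g) where
  f_sm k := sm_deck (hl.f_sm k) g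
  S_hol i v I := (hl.S_hol i (v * g⁻¹) I).const_smul _
  lim i v K hK hc I := (hl.lim i (v * g⁻¹) K hK hc I).congr fun k =>
    setLIntegral_congr_fun hc.measurableSet fun z hz => by
      simp only [h.tw_eq (f k) g v ((A.e i).map_target (hK hz)), trS, ← smul_sub]
      rw [enorm_smul, ← ofReal_norm (L g).det⁻¹, norm_inv, h.det, inv_one, ENNReal.ofReal_one,
        one_mul]

theorem lim_congr {f : ℕ → D.cov G → H} {S S' : A.ι → G → X → FI n → H} (hl : Lim D al f S)
    (h : ∀ i v, ∀ x ∈ (A.e i).source, ∀ I, S' i v x I = S i v x I) : Lim D al f S' where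
  f_sm := hl.f_sm
  S_hol i v I := (hl.S_hol i v I).congr fun _ hz => h i v _ ((A.e i).map_target hz) I
  lim i v K hK hc I := (hl.lim i v K hK hc I).congr fun k =>
    setLIntegral_congr_fun hc.measurableSet fun z hz => by
      simp only [h i v _ ((A.e i).map_target (hK hz)) I]

/-- the hypothesis `up` of `Rel.Min` -/
def Up (D : MonD A G) (al : D.cov G → Cn q) (S : A.ι → G → X → FI n → H) : Prop :=
  ∀ i, ∀ z₀ ∈ (A.e i).target, ∃ V ∈ 𝓝 z₀, ∃ C : ℝ≥0∞, C < ⊤ ∧ ∀ v, ∀ K ⊆ V, IsCompact K →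
    ∀ I, ∫⁻ z in K, ‖S i v ((A.e i).symm z) I‖ₑ ^ 2 ≤
      C * volume ((fun z => aV D al i v ((A.e i).symm z)) '' K)

/-- the form is locally bounded, uniformly in the sheet -/
theorem Aff.bd (h : Aff D al L lam) {S : A.ι → G → X → FI n → H}
    (hS : ∀ i v I, DifferentiableOn ℂ (fun z => S i v ((A.e i).symm z) I) (A.e i).target)
    (hu : Up D al S) (i : A.ι) {z₀ : Cn n} (hz : z₀ ∈ (A.e i).target) :
    ∃ C : ℝ, ∀ᶠ z in 𝓝 z₀, ∀ v I, ‖S i v ((A.e i).symm z) I‖ ≤ C := by
  obtain ⟨V, hV, C, hC, h1⟩ := hu i z₀ hz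
  obtain ⟨C', h2⟩ := bd_of_sq (A.e i).open_target hz hV
    (g := fun (p : G × FI n) z => S i p.1 ((A.e i).symm z) p.2) (fun p => hS i p.1 p.2)
    fun K hK hc => ⟨C * volume ((fun z => aV D al i 1 ((A.e i).symm z)) '' K),
      ENNReal.mul_lt_top hC (hc.image_of_continuousOn
        ((h.diff i 1).continuousOn.mono fun z hz => (hK hz).1)).measure_lt_top, fun p => by
      rw [← h.vol_eq p.1⁻¹, inv_inv, one_mul]
      exact h1 p.1 K (fun z hz => (hK hz).2) hc p.2⟩
  exact ⟨C', h2.mono fun z hz v I => hz (v, I)⟩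

theorem Aff.bd_tr (h : Aff D al L lam) {S : A.ι → G → X → FI n → H}
    (hS : ∀ i v I, DifferentiableOn ℂ (fun z => S i v ((A.e i).symm z) I) (A.e i).target)
    (hu : Up D al S) (i : A.ι) {z₀ : Cn n} (hz : z₀ ∈ (A.e i).target) :
    ∃ C : ℝ, ∀ᶠ z in 𝓝 z₀, ∀ g v I, ‖trS L S g i v ((A.e i).symm z) I‖ ≤ C :=
  (h.bd hS hu i hz).imp fun _ hC => hC.mono fun _ hz g v I => (h.norm_trS S g i v _ I).trans_le
    (hz _ I)

open Classical in
/-- the translates as one form with values in the bounded functions -/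
def SL {Ω : Type*} (om : Ω → G) (L : G → Cn q →L[ℂ] Cn q) (S : A.ι → G → X → FI n → H) (i : A.ι)
    (v : G) (x : X) (I : FI n) : Li Ω H :=
  if h : ∃ C, ∀ w, ‖trS L S (om w) i v x I‖ ≤ C then mk _ h else 0

variable {Ω : Type*} (om : Ω → G)

theorem Aff.SL_apply (h : Aff D al L lam) {S : A.ι → G → X → FI n → H}
    (hS : ∀ i v I, DifferentiableOn ℂ (fun z => S i v ((A.e i).symm z) I) (A.e i).target)
    (hu : Up D al S) {i : A.ι} (v : G) {x : X} (hx : x ∈ (A.e i).source) (I : FI n) (w : Ω) :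
    SL om L S i v x I w = trS L S (om w) i v x I := by
  obtain ⟨C, hC⟩ := h.bd_tr hS hu i ((A.e i).map_source hx)
  have h1 := hC.self_of_nhds
  rw [(A.e i).left_inv hx] at h1
  rw [SL, dif_pos ⟨C, fun w => h1 _ v I⟩, mk_apply]

theorem Aff.SL_hol [CompleteSpace H] (h : Aff D al L lam) {S : A.ι → G → X → FI n → H}
    (hS : ∀ i v I, DifferentiableOn ℂ (fun z => S i v ((A.e i).symm z) I) (A.e i).target)
    (hu : Up D al S) (i : A.ι) (v : G) (I : FI n) :
    DifferentiableOn ℂ (fun z => SL om L S i v ((A.e i).symm z) I) (A.e i).target := by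
  refine differentiableOn_li (A.e i).open_target (fun w => ?_) fun z hz => ?_
  · exact ((hS i (v * (om w)⁻¹) I).const_smul (L (om w)).det⁻¹).congr fun z hz =>
      h.SL_apply om hS hu v ((A.e i).map_target hz) I w
  · obtain ⟨C, hC⟩ := h.bd_tr hS hu i hz
    refine ⟨C, ?_⟩
    filter_upwards [hC, (A.e i).open_target.mem_nhds hz] with y h1 h2
    refine norm_le _ ((norm_nonneg _).trans (h1 1 v I)) fun w => ?_
    rw [h.SL_apply om hS hu v ((A.e i).map_target h2)]
    exact h1 _ v I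

theorem Aff.lim_SL (h : Aff D al L lam) {f : ℕ → D.cov G → H} {S : A.ι → G → X → FI n → H}
    (hl : Lim D al f S) (hu : Up D al S) (w : Ω) :
    Lim D al (fun k e => f k (om w • e)) fun i v x I => SL om L S i v x I w :=
  lim_congr (h.lim_tr hl (om w)) fun _ v _ hx I => h.SL_apply om hl.S_hol hu v hx I w

end

end Crest.Agent.X261.Ni
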